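import Crest.Agent.N250.Bt.Sup
import Crest.Agent.N250.FV.Hu4
import Crest.Agent.N250.Be.Main
import Crest.Agent.N250.T.Reach

/-!
# Row 250, Boot (helper14): `BootS` from White's theorem
-/

set_option autoImplicit false

namespace Crest.Agent.N250

theorem bootS_of (hW : WhiteS) : BootS :=
  Bt.bootS_of (Bt.bootF_of divS_holds transS_holds muContS_holds huiskenS_holds hW bernS_holds
    reachAS_holds)

end Crest.Agent.N250
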