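import Crest.Agent.N250.T.Stm

/-!
# Row 250, Boot (helper14): statements
-/

set_option autoImplicit false
open MeasureTheory Set Filter Topology
open scoped ContDiff InnerProductSpace
open Crest.GeometryTopology.MCF

noncomputable section

namespace Crest.Agent.N250

/-- the two smallness hypotheses at the good time `-1`, with `D' = exp (-R² / 4)` -/
structure Sml (G : Mv) (R : ℝ) : Prop where
  drop : G.Fg 0 2 - G.Fg 0 1 ≤ Real.exp (-R ^ 2 / 4)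
  shr : ∫⁻ x, ENNReal.ofReal (G.shr (x, -1) ^ 2 * gau 0 1 x) ∂G.mu (-1) ≤
    ENNReal.ofReal (Real.exp (-R ^ 2 / 4))

/-- S2 + S3: density close to one on `B_{r-1}` at the time `-1` gives reach, jets and an
exponentially small `shr` on `B_{r+2}` at the same time -/
def BootF : Prop := ∀ Λ : ℝ, ∃ εW c : ℝ, 0 < εW ∧ 0 < c ∧ ∀ h η : ℝ, 0 < h → h ≤ 1 / 2 → 0 < η →
  η < 1 → ∃ (r₀ κ : ℝ) (C : ℕ → ℝ), 0 < κ ∧ ∀ (G : Mv) (a R r : ℝ), a < -4 → Fl G (Ioo a 0) Λ →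
    Sml G R → r₀ ≤ r → r ≤ (1 - η) * R →
    (∀ y : E, ‖y‖ ≤ r - 1 → ∀ σ ∈ Icc (h / 2) h, G.Fs (-1) y σ ≤ 1 + εW) →
    ∀ x ∈ G.sl (-1), ‖x‖ < r + 2 → G.Reach (x, -1) (c * √h) ∧ (∀ k, G.NJet k (C k) (x, -1)) ∧
      |G.shr (x, -1)| ≤ Real.exp (-κ * R ^ 2)

/-- choice of the good time: `G = F.para 0 lam'` -/
def GoodTS : Prop := ∀ (F : Mv) (a Λ lam R : ℝ), Fl F (Ioo a 0) Λ → 0 < lam → a * lam ^ 2 < -4 →
  4 * (F.Fg 0 (2 / lam) - F.Fg 0 (1 / (2 * lam))) ≤ Real.exp (-R ^ 2 / 4) →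
  ∃ lam' ∈ Icc lam (2 * lam), Sml (F.para 0 lam') R ∧
    F.Fg 0 (2 / lam) ≤ (F.para 0 lam').Fs (-1) 0 1 + (F.Fg 0 (2 / lam) - F.Fg 0 (1 / (2 * lam)))

end Crest.Agent.N250

end
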