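import Crest.Agent.N250.Bt.White
import Crest.Agent.N250.Im.MV
import Crest.Agent.N250.Sg.Area
import Crest.Agent.N250.R.One
import Crest.Agent.N250.Cv.Api
import Crest.Agent.N250.Tr.Inst

/-!
# Row 250, Boot (helper14): S3 (`shr` is small in `C⁰`) and `BootS`
-/

set_option autoImplicit false
open MeasureTheory Set Filter Topology
open scoped ContDiff InnerProductSpace
open Crest.GeometryTopology.MCF

noncomputable section

namespace Crest.Agent.N250.Bt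

variable {G : Mv} {p : ST}

theorem sm_shr (hG : G.Reg) : G.Sm G.shr := (sm_H hG).sub ((sm_xn hG).div_const 2)

theorem abs_nu (hG : G.Reg) (hp : p ∈ G.M) (a : Fin 3) : |G.nu a p| ≤ 1 := by
  have := PiLp.norm_apply_le (G.n p) a
  rwa [hG.norm_n hp] at this

theorem D_shr (hG : G.Reg) (hp : p ∈ G.M) (a : Fin 3) : G.D a G.shr p =
    ∑ b, (G.DL [a, b] (G.nu b) p - (p.1 b * G.DL [a] (G.nu b) p + G.P a b p * G.nu b p) / 2) := by
  have e : ∀ q ∈ G.M, G.shr q =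
      ∑ b, (1 : ℝ) *
        (G.D b (G.nu b) + (fun _ => (-1 / 2 : ℝ)) * (G.pre.x b * G.nu b) : ST → ℝ) q := by
    intro q _
    simp only [Mv.shr, xn_sum, Mv.H, Mv.A, Finset.sum_apply, Pi.add_apply, Pi.mul_apply, Mv.pre,
      Fin.sum_univ_three]
    ring
  have s1 : ∀ b, G.Sm (G.D b (G.nu b)) := fun b => hG.sm_D (hG.sm_nu b) b
  have s2 : ∀ b, G.Sm (G.pre.x b * G.nu b) := fun b => (Mv.sm_x b).mul (hG.sm_nu b)
  have s3 : G.Sm fun _ => (-1 / 2 : ℝ) := Mv.sm_const _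
  rw [Mv.D_congr' hp e, Tr.D_lin hG hp _ _ fun b _ => (s1 b).add (s3.mul (s2 b))]
  refine Finset.sum_congr rfl fun b _ => ?_
  have t := hG.tg_PL hp (ee a)
  rw [Mv.D_apply, hG.td_add hp ((s1 b).diffW hp) ((s3.mul (s2 b)).diffW hp) t,
    hG.td_mul hp (s3.diffW hp) ((s2 b).diffW hp) t, hG.td_const hp _ t,
    hG.td_mul hp ((Mv.sm_x b).diffW hp) ((hG.sm_nu b).diffW hp) t]
  change 1 * (G.DL [a, b] (G.nu b) p + (-1 / 2 * (p.1 b * G.DL [a] (G.nu b) p
    + G.P a b p * G.nu b p) + 0 * _)) = _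
  ring

theorem D_shr_le (hG : G.Reg) (hp : p ∈ G.M) {C₁ C₂ : ℝ} (h1 : G.NJet 1 C₁ p) (h2 : G.NJet 2 C₂ p)
    (a : Fin 3) : |G.D a G.shr p| ≤ 3 * (|C₂| + ‖p.1‖ * |C₁| + 1) := by
  rw [D_shr hG hp]
  refine (Finset.abs_sum_le_sum_abs _ _).trans ((Finset.sum_le_card_nsmul _ _
    (|C₂| + ‖p.1‖ * |C₁| + 1) fun b _ => ?_).trans (le_of_eq (by simp; ring)))
  have a1 := (h2 b [a, b] rfl).trans (le_abs_self _)
  have a2 := (h1 b [a] rfl).trans (le_abs_self _)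
  have a3 : |p.1 b| ≤ ‖p.1‖ := PiLp.norm_apply_le p.1 b
  have a4 : |G.P a b p| ≤ 2 := by
    rw [hG.P_eq hp]
    refine (abs_sub _ _).trans ?_
    rw [abs_mul]
    have := mul_le_mul (abs_nu hG hp a) (abs_nu hG hp b) (abs_nonneg _) zero_le_one
    split_ifs <;> simp <;> linarith
  have a5 := mul_le_mul a3 a2 (abs_nonneg _) (norm_nonneg _)
  have a6 := mul_le_mul a4 (abs_nu hG hp b) (abs_nonneg _) zero_le_two
  rw [← abs_mul] at a5 a6
  have a7 : 0 ≤ ‖p.1‖ * |C₁| := by positivity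
  rw [abs_le] at a1 a5 a6 ⊢
  constructor <;> linarith [a1.1, a1.2, a5.1, a5.2, a6.1, a6.2]

theorem td_le (f : ST → ℝ) {L : ℝ} (h : ∀ a, |G.D a f p| ≤ L) {v : E} (hv : ⟪G.n p, v⟫_ℝ = 0) :
    |G.td f p (v, 0)| ≤ 3 * L * ‖v‖ := by
  rw [Mv.td_perp f hv]
  refine (Finset.abs_sum_le_sum_abs _ _).trans ((Finset.sum_le_card_nsmul _ _ (‖v‖ * L)
    fun b _ => ?_).trans (le_of_eq (by simp; ring)))
  rw [abs_mul]
  exact mul_le_mul (PiLp.norm_apply_le v b) (h b) (abs_nonneg _) (norm_nonneg _)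

/-- a Lipschitz function on a slice with small weighted `L²` norm is small -/
theorem sup_le (hG : G.Reg) {t : ℝ} (hc : IsClosed (G.sl t)) {u : ST → ℝ} (hu : G.Sm u) {x : E}
    (hx : x ∈ G.sl t) {ρ s L β γ : ℝ} (hs : 0 < s) (hρ : s ≤ ρ) (hL : 0 ≤ L) (hβ : 0 ≤ β)
    (hγ : 0 < γ) (hR : ∀ y ∈ G.sl t ∩ Metric.closedBall x s, G.Reach (y, t) ρ)
    (hD : ∀ y ∈ G.sl t ∩ Metric.closedBall x s, ∀ a, |G.D a u (y, t)| ≤ L) {w : E → ℝ}
    (hw : ∀ y ∈ Metric.ball x s, γ ≤ w y)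
    (hI : ∫⁻ y, ENNReal.ofReal (u (y, t) ^ 2 * w y) ∂G.mu t ≤ ENNReal.ofReal β) :
    |u (x, t)| ≤ 6 * L * s + √(32 * β / γ) / s := by
  by_contra hh
  set m := |u (x, t)| - 6 * L * s with hm
  have m0 : √(32 * β / γ) / s < m := by linarith [not_le.1 hh]
  have m1 : 0 < m := lt_of_le_of_lt (by positivity) m0
  have a1 : ∀ y ∈ G.sl t, y ∈ Metric.ball x s → m ^ 2 * γ ≤ u (y, t) ^ 2 * w y := fun y hy h1 => by
    have b1 := Im.mv hG (f := u) (L := 3 * L) hx (hs.trans_le hρ) hρ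
      ((isCompact_closedBall x s).inter_left hc) (fun y hy => hu.diffW hy.1) hR
      (fun y hy v hv => td_le u (hD y hy) hv) (by positivity) ⟨hy, Metric.ball_subset_closedBall h1⟩
    have b2 : ‖y - x‖ ≤ s := by rw [← dist_eq_norm]; exact le_of_lt h1
    have b3 := abs_sub_abs_le_abs_sub (u (x, t)) (u (y, t))
    rw [Real.norm_eq_abs, abs_sub_comm] at b1
    have b4 : m ≤ |u (y, t)| := by nlinarith [mul_le_mul_of_nonneg_left b2 hL]
    rw [← sq_abs (u (y, t))]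
    exact mul_le_mul (pow_le_pow_left₀ m1.le b4 2) (hw y h1) hγ.le (sq_nonneg _)
  have a2 := Sg.area_lower hG hx hs hρ (fun y hy _ => hc.closure_subset hy)
    fun y hy h1 => hR y ⟨hy, Metric.ball_subset_closedBall h1⟩
  have a3 : ENNReal.ofReal (m ^ 2 * γ * (s ^ 2 / 32)) ≤ ENNReal.ofReal β := by
    refine le_trans ?_ hI
    rw [ENNReal.ofReal_mul (by positivity)]
    refine (mul_le_mul_right a2 _).trans ?_
    rw [← lintegral_indicator_const Metric.isOpen_ball.measurableSet]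
    refine lintegral_mono_ae ((ae_restrict_mem hc.measurableSet).mono fun y hy => ?_)
    by_cases h1 : y ∈ Metric.ball x s
    · rw [indicator_of_mem h1]; exact ENNReal.ofReal_le_ofReal (a1 y hy h1)
    · rw [indicator_of_notMem h1]; exact zero_le
  have a4 := (ENNReal.ofReal_le_ofReal_iff hβ).1 a3
  rw [div_lt_iff₀ hs, Real.sqrt_lt' (by positivity), div_lt_iff₀ hγ] at m0
  nlinarith

/-- S2 + S3 with the Gaussian areas as hypothesis -/
theorem bootF_of (hD : DivS) (hT : TransS) (hC : MuContS) (hH : HuiskenS) (hW : WhiteS)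
    (hB : BernS) (hA : ReachAS) : BootF := by
  intro Λ
  obtain ⟨εW, c, h1, h2, h3⟩ := boot2 hD hT hC hH hW hB hA Λ
  refine ⟨εW, c, h1, h2, fun h η hh hh2 hη hη1 => ?_⟩
  obtain ⟨r₀, C, h4, h5⟩ := h3 h η hh hh2 hη hη1
  have hq0 : 0 < √h := Real.sqrt_pos.2 hh
  have hpi := Real.pi_pos
  set d := min 1 (c * √h) with hd
  have d0 : 0 < d := lt_min one_pos (by positivity)
  have d1 : d ≤ 1 := min_le_left _ _
  have d2 : d ≤ c * √h := min_le_right _ _
  obtain ⟨R₀, hR₀⟩ := poly_exp (18 * (|C 2| + |C 1| + 1) + √(128 * Real.pi) / d) (κ := η / 64)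
    (by positivity) one_pos
  refine ⟨max (max r₀ R₀) (6 / η), η / 64, C, by positivity,
    fun G a R r ha hG hs hr hrR hF x hx hxr => ?_⟩
  have r1 : r₀ ≤ r := (le_max_of_le_left (le_max_left _ _)).trans hr
  have r2 : R₀ ≤ r := (le_max_of_le_left (le_max_right _ _)).trans hr
  have r3 : 6 / η ≤ r := (le_max_right _ _).trans hr
  have hR : 0 < R := by by_contra hh; nlinarith [not_lt.1 hh]
  have hrR' : r ≤ R := by nlinarith
  rw [div_le_iff₀ hη] at r3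
  have r4 : r + 3 ≤ (1 - η / 2) * R := by nlinarith
  have w := h5 G a R r ha hG hs.drop r1 hrR hF
  refine ⟨(w x hx (by linarith)).1, (w x hx (by linarith)).2, ?_⟩
  set δ := Real.exp (-(η / 64) * R ^ 2) with hδ
  have hδ0 : 0 < δ := Real.exp_pos _
  have hδ1 : δ ≤ 1 := Real.exp_le_one_iff.2 (by nlinarith [sq_nonneg R])
  have hδ2 : δ ^ 2 ≤ 1 := pow_le_one₀ hδ0.le hδ1
  have s1 : d * δ ^ 2 ≤ d := mul_le_of_le_one_right d0.le hδ2
  have nb : ∀ y ∈ Metric.closedBall x (d * δ ^ 2), ‖y‖ < r + 3 := fun y hy => by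
    have b1 : dist y x ≤ d * δ ^ 2 := hy
    have b2 := norm_sub_norm_le y x
    rw [← dist_eq_norm] at b2
    linarith
  have k := sup_le hG.mcf.1 (sl_closed hG ⟨by linarith, by norm_num⟩) (sm_shr hG.mcf.1) hx
    (s := d * δ ^ 2) (L := 3 * (|C 2| + R * |C 1| + 1))
    (γ := (4 * Real.pi)⁻¹ * Real.exp (-((1 - η / 2) * R) ^ 2 / 4)) (by positivity) (s1.trans d2)
    (by positivity) (Real.exp_pos _).le (by positivity)
    (fun y hy => (w y hy.1 (nb y hy.2)).1) (fun y hy b => by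
      refine (D_shr_le hG.mcf.1 hy.1 ((w y hy.1 (nb y hy.2)).2 1) ((w y hy.1 (nb y hy.2)).2 2)
        b).trans ?_
      have b1 : ‖y‖ ≤ R := by nlinarith [nb y hy.2]
      simp only
      gcongr) (w := gau 0 1) (fun y hy => by
      have b1 := (nb y (Metric.ball_subset_closedBall hy)).le.trans r4
      simp only [gau, sub_zero, mul_one]
      gcongr) hs.shr
  have e1 : √(32 * Real.exp (-R ^ 2 / 4) /
      ((4 * Real.pi)⁻¹ * Real.exp (-((1 - η / 2) * R) ^ 2 / 4))) ≤ √(128 * Real.pi) * δ ^ 4 := by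
    rw [← Real.sqrt_sq (show 0 ≤ δ ^ 4 by positivity), ← Real.sqrt_mul (by positivity)]
    refine Real.sqrt_le_sqrt ?_
    rw [div_le_iff₀ (by positivity), ← pow_mul, hδ, ← Real.exp_nat_mul,
      show ∀ A B : ℝ, 128 * Real.pi * A * ((4 * Real.pi)⁻¹ * B) = 32 * (A * B) from
        fun A B => by field_simp; ring, ← Real.exp_add]
    refine mul_le_mul_of_nonneg_left (Real.exp_le_exp.2 ?_) (by norm_num)
    have : 0 ≤ η * (1 - η) * R ^ 2 := by have := sub_pos.2 hη1; positivity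
    have : 0 ≤ η * R ^ 2 := by positivity
    push_cast; nlinarith
  have e2 := hR₀ R (r2.trans hrR')
  rw [← hδ] at e2
  have e3 : √(128 * Real.pi) * δ ^ 4 / (d * δ ^ 2) = √(128 * Real.pi) / d * δ ^ 2 := by field_simp
  have e4 := div_le_div_of_nonneg_right e1 (show 0 ≤ d * δ ^ 2 by positivity)
  rw [e3] at e4
  have e5 : 6 * (3 * (|C 2| + R * |C 1| + 1)) * (d * δ ^ 2) ≤
      18 * (|C 2| + |C 1| + 1) * (1 + R) ^ 2 * δ ^ 2 := by
    have b1 : |C 2| + R * |C 1| + 1 ≤ (|C 2| + |C 1| + 1) * (1 + R) ^ 2 := by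
      have := abs_nonneg (C 1)
      have := abs_nonneg (C 2)
      have : 0 ≤ |C 2| * (2 * R + R ^ 2) := by positivity
      have : 0 ≤ |C 1| * (1 + R + R ^ 2) := by positivity
      nlinarith [sq_nonneg R]
    calc _ ≤ 6 * (3 * ((|C 2| + |C 1| + 1) * (1 + R) ^ 2)) * (1 * δ ^ 2) := by gcongr
      _ = _ := by ring
  have e6 : √(128 * Real.pi) / d * δ ^ 2 ≤ √(128 * Real.pi) / d * (1 + R) ^ 2 * δ ^ 2 := by
    gcongr
    exact le_mul_of_one_le_right (by positivity) (by nlinarith)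
  nlinarith [mul_le_mul_of_nonneg_right e2 hδ0.le]

theorem fr_shr (hG : G.Reg) {t : ℝ} {x : E} (hx : (x, t) ∈ G.M) (s : ℝ) :
    (G.freeze t).shr (x, s) = G.shr (x, t) := by
  have := (Cv.pull_sFr G t).H hG (p := (x, s)) hx
  rw [Mv.shr, Mv.shr, this, Cv.sFr_map]
  simp [Cv.sFr, Mv.xn, Mv.freeze]

theorem fr_dis (hG : G.Reg) (t : ℝ) : (G.freeze t).dis =
    ∫⁻ x, ENNReal.ofReal (G.shr (x, t) ^ 2 * gau 0 1 x) ∂G.mu t :=
  lintegral_congr_ae ((Tr.ae_sl hG t).mono fun x hx => by simp only [fr_shr hG hx])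

theorem bootS_of (hB : BootF) : BootS := by
  intro Λ
  obtain ⟨εW, c, h1, h2, h3⟩ := hB Λ
  obtain ⟨K, δ, η₀, k1, k2, k3, k4⟩ := A.good (abs_nonneg Λ) h1
  refine ⟨η₀, k3, fun a₀ η ha hη hη1 => ?_⟩
  set q := min (a₀ / (2 * K)) (1 / (2 * K)) with hq
  have q0 : 0 < q := lt_min (by positivity) (by positivity)
  have q1 : 2 * K * q ≤ a₀ := by
    rw [mul_comm, ← le_div_iff₀ (by positivity)]; exact min_le_left _ _
  have q2 : 2 * K * q ≤ 1 := by
    rw [mul_comm, ← le_div_iff₀ (by positivity)]; exact min_le_right _ _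
  obtain ⟨r₀, κ, C, hκ, h4⟩ := h3 (q ^ 2) η (by positivity) (by nlinarith) hη hη1
  refine ⟨c * √(q ^ 2), 1, κ, r₀, by positivity, hκ,
    fun G a R ha4 hG _ hd hs r hr hrR hcone x hx hxr => ?_⟩
  rw [fr_dis hG.mcf.1] at hs
  obtain ⟨w1, -, w2⟩ := h4 G a R r ha4 hG ⟨hd, hs⟩ hr hrR (fun y hy σ hσ =>
    k4 G (-1) y q (G.sl (-1) ∩ Metric.ball 0 r) q0 (fl_abs hG).ar
      (fun z hz => ⟨hz.1, hG.mcf.1.norm_n hz.1,
        A.Cone.mono (hcone z hz.1 (by simpa using hz.2)) le_rfl q1⟩)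
      (le_trans (le_of_eq (measure_eq_zero_iff_ae_notMem.2
        ((Tr.ae_sl hG.mcf.1 (-1)).mono fun z hz h5 => h5.2 ⟨hz, by
          have b1 : dist z y < K * q := h5.1
          have b2 := norm_sub_norm_le z y
          rw [← dist_eq_norm] at b2
          rw [mem_ball_zero_iff]; linarith⟩))) zero_le)
      y (Metric.mem_ball_self q0) σ ⟨by nlinarith [hσ.1], hσ.2⟩) x hx hxr
  exact ⟨w1, by rw [fr_shr hG.mcf.1 hx, one_mul]; exact w2⟩

end Crest.Agent.N250.Bt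

end
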