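import Crest.Agent.N250.T.Stm
import Crest.Agent.N250.Re.Comm

/-!
# Row 250, Boot (helper14): a flow with small density drop is weakly self-similar
-/

set_option autoImplicit false
open MeasureTheory Set Filter Topology
open scoped ContDiff InnerProductSpace
open Crest.GeometryTopology.MCF

noncomputable section

namespace Crest.Agent.N250.Bt

theorem ofReal_int_le {α : Type} [MeasurableSpace α] (μ : Measure α) (f : α → ℝ) :
    ENNReal.ofReal (∫ x, f x ∂μ) ≤ ∫⁻ x, ENNReal.ofReal (f x) ∂μ := by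
  by_cases hf : Integrable f μ
  · rw [integral_eq_lintegral_pos_part_sub_lintegral_neg_part hf]
    refine (ENNReal.ofReal_le_ofReal (sub_le_self _ ENNReal.toReal_nonneg)).trans ?_
    exact ENNReal.ofReal_toReal_le
  · simp [integral_undef hf]

variable {G : Mv} {I : Set ℝ} {Λ : ℝ}

theorem sl_closed (h : Fl G I Λ) {t : ℝ} (ht : t ∈ I) : IsClosed (G.sl t) := by
  refine isClosed_of_closure_subset fun x hx => h.proper (x, t) ?_ ⟨trivial, ht⟩
  exact map_mem_closure (f := fun y : E => (y, t)) (by fun_prop) hx fun y hy => hy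

theorem ae_sl (h : Fl G I Λ) {t : ℝ} (ht : t ∈ I) : ∀ᵐ x ∂G.mu t, (x, t) ∈ G.M :=
  ae_restrict_mem (sl_closed h ht).measurableSet

theorem finc (h : G.AR Λ) (t : ℝ) : IsFiniteMeasureOnCompacts (G.mu t) := by
  refine ⟨fun K hK => ?_⟩
  obtain ⟨r, hr, h1⟩ := hK.isBounded.subset_ball_lt 0 (0 : E)
  exact (measure_mono h1).trans_lt ((h t 0 r hr).trans_lt ENNReal.ofReal_lt_top)

/-- continuous functions with bounded support are integrable on the slices -/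
theorem intg (h : Fl G I Λ) {t : ℝ} (ht : t ∈ I) {u : ST → ℝ} (hu : ContinuousOn u G.M) {ρ : ℝ}
    (h0 : ∀ x, (x, t) ∈ G.M → ρ ≤ ‖x‖ → u (x, t) = 0) :
    Integrable (fun x => u (x, t)) (G.mu t) := by
  haveI := finc h.ar t
  have hc : IsCompact (G.sl t ∩ Metric.closedBall 0 ρ) :=
    (isCompact_closedBall 0 ρ).inter_left (sl_closed h ht)
  have h1 : IntegrableOn (fun x => u (x, t)) (G.sl t ∩ Metric.closedBall 0 ρ) (G.mu t) :=
    (hu.comp (f := fun y : E => (y, t)) (by fun_prop) fun y hy => hy.1).integrableOn_compact hc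
  refine ((integrable_indicator_iff hc.measurableSet).2 h1).congr ?_
  filter_upwards [ae_sl h ht] with x hx
  by_cases h2 : x ∈ Metric.closedBall (0 : E) ρ
  · exact indicator_of_mem (show x ∈ G.sl t ∩ _ from ⟨hx, h2⟩) _
  · rw [indicator_of_notMem (fun h3 => h2 h3.2), h0 x hx]
    simpa using (not_le.1 (by simpa using h2) : ρ < ‖x‖).le

theorem cpt (h : Fl G I Λ) {t₁ t₂ : ℝ} (hI : Icc t₁ t₂ ⊆ I) (ρ : ℝ) :
    IsCompact (G.M ∩ Metric.closedBall 0 ρ ×ˢ Icc t₁ t₂) := by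
  have hK : IsCompact (Metric.closedBall (0 : E) ρ ×ˢ Icc t₁ t₂) :=
    (isCompact_closedBall 0 ρ).prod isCompact_Icc
  refine hK.of_isClosed_subset (isClosed_of_closure_subset fun p hp => ?_) inter_subset_right
  have h1 := hK.isClosed.closure_subset_iff.2 inter_subset_right hp
  exact ⟨h.proper p (closure_mono inter_subset_left hp) ⟨trivial, hI h1.2⟩, h1⟩

theorem cs_of (h : Fl G I Λ) {t₁ t₂ : ℝ} (hI : Icc t₁ t₂ ⊆ I) {J : Set ℝ} (hJ : J ⊆ Icc t₁ t₂)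
    {u : ST → ℝ} {ρ : ℝ} (h0 : ∀ p ∈ G.M, p.2 ∈ J → ρ ≤ ‖p.1‖ → u p = 0) : G.CS u J := by
  refine ⟨_, cpt h hI ρ, inter_subset_left, fun p hp h1 h2 => h0 p hp h1 ?_⟩
  by_contra h3
  exact h2 ⟨hp, by simpa using (not_le.1 h3).le, hJ h1⟩

/-- the self-similar extension of `g` -/
def ss (g : E → ℝ) (p : ST) : ℝ := (-p.2)⁻¹ * g ((√(-p.2))⁻¹ • p.1)

variable {g : E → ℝ} {p : ST}

theorem ss_sm (hg : ContDiff ℝ ∞ g) (hp : p.2 < 0) : ContDiffAt ℝ ∞ (ss g) p := by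
  have h1 : -p.2 ≠ 0 := by linarith
  have h2 : √(-p.2) ≠ 0 := (Real.sqrt_pos.2 (by linarith)).ne'
  have h3 : ContDiffAt ℝ ∞ (fun q : ST => -q.2) p := contDiffAt_snd.neg
  exact (h3.inv h1).mul (hg.contDiffAt.comp p (((h3.sqrt h1).inv h2).smul contDiffAt_fst))

theorem ss_sp (hg : ContDiff ℝ ∞ g) (hp : p.2 < 0) (v : E) :
    fderiv ℝ (ss g) p (v, 0) =
      (-p.2)⁻¹ * fderiv ℝ g ((√(-p.2))⁻¹ • p.1) ((√(-p.2))⁻¹ • v) := by
  have h1 : HasDerivAt (fun s : ℝ => ((p.1 + s • v, p.2) : ST)) (v, 0) 0 := by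
    simpa using (((hasDerivAt_id (0 : ℝ)).smul_const v).const_add p.1).prodMk
      (hasDerivAt_const (0 : ℝ) p.2)
  have h2 := HasFDerivAt.comp_hasDerivAt_of_eq (0 : ℝ)
    ((ss_sm hg hp).differentiableAt (by simp)).hasFDerivAt h1 (by simp)
  have h3 : HasDerivAt (fun s : ℝ => (√(-p.2))⁻¹ • (p.1 + s • v)) ((√(-p.2))⁻¹ • v) 0 := by
    have := (((hasDerivAt_id (0 : ℝ)).smul_const v).const_add p.1).const_smul (√(-p.2))⁻¹
    rw [one_smul] at this
    exact this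
  have h4 := (HasFDerivAt.comp_hasDerivAt_of_eq (0 : ℝ)
    (hg.differentiable (by simp) ((√(-p.2))⁻¹ • p.1)).hasFDerivAt h3 (by simp)).const_mul (-p.2)⁻¹
  exact h2.unique h4

theorem ss_euler (hg : ContDiff ℝ ∞ g) (hp : p.2 < 0) :
    fderiv ℝ (ss g) p (0, 1) = (2 * ss g p + fderiv ℝ (ss g) p (p.1, 0)) / (2 * (-p.2)) := by
  have h1 : HasDerivAt (fun s : ℝ => ((s • p.1, s ^ 2 * p.2) : ST)) (p.1, 2 * p.2) 1 := by
    simpa using ((hasDerivAt_id (1 : ℝ)).smul_const p.1).prodMk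
      ((hasDerivAt_pow 2 (1 : ℝ)).mul_const p.2)
  have h2 := HasFDerivAt.comp_hasDerivAt_of_eq (1 : ℝ)
    ((ss_sm hg hp).differentiableAt (by simp)).hasFDerivAt h1 (by simp)
  have h3 : HasDerivAt (fun s : ℝ => (s ^ 2)⁻¹ * ss g p) (-2 * ss g p) 1 := by
    have := ((hasDerivAt_pow 2 (1 : ℝ)).inv (by simp)).mul_const (ss g p)
    simpa using this
  have h4 : (ss g ∘ fun s : ℝ => ((s • p.1, s ^ 2 * p.2) : ST)) =ᶠ[𝓝 1]
      fun s : ℝ => (s ^ 2)⁻¹ * ss g p := by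
    filter_upwards [Ioi_mem_nhds (zero_lt_one' ℝ)] with s hs
    have hs' : 0 < s := hs
    have e : √(-(s ^ 2 * p.2)) = s * √(-p.2) := by
      rw [← mul_neg, Real.sqrt_mul (sq_nonneg s), Real.sqrt_sq hs'.le]
    simp only [Function.comp, ss, e, smul_smul]
    rw [show (s * √(-p.2))⁻¹ * s = (√(-p.2))⁻¹ by field_simp, ← mul_neg, mul_inv, mul_assoc]
  have h5 := h2.unique (h3.congr_of_eventuallyEq h4)
  have e : ((p.1, 2 * p.2) : ST) = (p.1, 0) + (2 * p.2) • ((0 : E), (1 : ℝ)) := by simp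
  rw [e, map_add, map_smul, smul_eq_mul] at h5
  rw [eq_div_iff (by linarith)]
  linarith

/-- the defect in the first variation -/
def qq (G : Mv) (g : E → ℝ) (p : ST) : ℝ :=
  G.dev 0 p * (fderiv ℝ (ss g) p (G.n p, 0) + ss g p * G.xn 0 p / (2 * (-p.2)))
    + ss g p * G.dev 0 p ^ 2

theorem xn_sum (G : Mv) (p : ST) : G.xn 0 p = ∑ a, p.1 a * G.nu a p := by
  simp [Mv.xn, inner_eq_sum, Mv.nu]

theorem sm_H (hG : G.Reg) : G.Sm G.H := Mv.Sm.sum fun a _ => hG.sm_D (hG.sm_nu a) a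

theorem sm_xn (hG : G.Reg) : G.Sm (G.xn 0) :=
  ContDiffOn.inner ℝ (contDiffOn_fst.sub contDiffOn_const) hG.sm_n

theorem key (hG : G.IsMCF) (hg : ContDiff ℝ ∞ g) (hM : p ∈ G.M) (hp : p.2 < 0) :
    G.Dt (ss g) p + ss g p * G.V p * G.H p =
      (2 * (-p.2))⁻¹ * ∑ a, (G.D a (ss g * G.pre.x a) p
        - (ss g * G.pre.x a) p * G.H p * G.nu a p) - qq G g p := by
  have hd := (ss_sm hg hp).differentiableAt (by simp)
  have h1 : G.Dt (ss g) p = G.V p * fderiv ℝ (ss g) p (G.n p, 0) + fderiv ℝ (ss g) p (0, 1) := by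
    rw [Mv.Dt, hG.1.td_amb hM hd (hG.1.tg_vel hM), ← smul_eq_mul, ← map_smul, ← map_add]
    simp
  have h2 : ∀ a, G.D a (ss g * G.pre.x a) p = ss g p * G.P a a p + G.D a (ss g) p * p.1 a :=
    fun a => hG.1.td_mul hM hd.differentiableWithinAt ((Mv.sm_x a).diffW hM) (hG.1.tg_PL hM _)
  have h3 : ∑ a, G.P a a p = 2 := by
    simp only [hG.1.P_eq hM, Finset.sum_sub_distrib, hG.1.nn hM]
    norm_num
  have h4 : ∑ a, G.D a (ss g) p * p.1 a =
      fderiv ℝ (ss g) p (p.1, 0) - G.xn 0 p * fderiv ℝ (ss g) p (G.n p, 0) := by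
    have := Mv.td_PL (F := G) (ss g) p p.1
    rw [hG.1.td_amb hM hd (hG.1.tg_PL hM _)] at this
    rw [Finset.sum_congr rfl fun a _ => mul_comm _ _, ← this, ← smul_eq_mul, ← map_smul,
      ← map_sub]
    simp [Mv.PL, Mv.xn, real_inner_comm]
  have h5 : ∑ a, (ss g * G.pre.x a) p * G.H p * G.nu a p = ss g p * G.H p * G.xn 0 p := by
    rw [xn_sum, Finset.mul_sum]
    exact Finset.sum_congr rfl fun a _ => by simp only [Pi.mul_apply, Mv.pre]; ring
  rw [Finset.sum_sub_distrib, h5, Finset.sum_congr rfl fun a _ => h2 a, Finset.sum_add_distrib,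
    ← Finset.mul_sum, h3, h4, h1, ss_euler hg hp, hG.2 p hM]
  have : -p.2 ≠ 0 := by linarith
  simp only [qq, Mv.dev, Prod.fst_zero, Prod.snd_zero, zero_sub]
  field_simp
  ring

theorem ss_zero {ρ : ℝ} (h0 : ∀ y, ρ ≤ ‖y‖ → g y = 0) (hp : p.2 < 0) (h : ρ * √(-p.2) ≤ ‖p.1‖) :
    ss g p = 0 := by
  have h1 : 0 < √(-p.2) := Real.sqrt_pos.2 (by linarith)
  rw [ss, h0, mul_zero]
  rw [norm_smul, norm_inv, Real.norm_of_nonneg h1.le, ← div_eq_inv_mul, le_div_iff₀ h1]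
  exact h

theorem fd_zero (hg : ContDiff ℝ ∞ g) {ρ : ℝ} (h0 : ∀ y, ρ ≤ ‖y‖ → g y = 0) {y : E}
    (h : ρ ≤ ‖y‖) : fderiv ℝ g y = 0 := by
  have h1 : ∀ z : E, ρ < ‖z‖ → fderiv ℝ g z = 0 := fun z hz => by
    have : g =ᶠ[𝓝 z] fun _ => 0 := by
      filter_upwards [(isOpen_lt continuous_const continuous_norm).mem_nhds hz] with w hw
        using h0 w (le_of_lt hw)
    rw [this.fderiv_eq]; simp
  by_cases hy : y = 0
  · have : g = fun _ => 0 := funext fun z => h0 z (h.trans (by simp [hy]))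
    rw [this]; simp
  have hc : Continuous fun s : ℝ => fderiv ℝ g (s • y) :=
    (hg.continuous_fderiv (by simp)).comp (by fun_prop)
  have h2 : ∀ᶠ s in 𝓝[>] (1 : ℝ), fderiv ℝ g (s • y) = 0 := by
    filter_upwards [self_mem_nhdsWithin] with s hs
    have hs' : 1 < s := hs
    refine h1 _ ?_
    rw [norm_smul, Real.norm_of_nonneg (by linarith)]
    nlinarith [norm_pos_iff.2 hy]
  have h3 := tendsto_nhds_unique ((hc.tendsto 1).mono_left nhdsWithin_le_nhds)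
    (tendsto_const_nhds.congr' (h2.mono fun s hs => hs.symm))
  simpa using h3

theorem qq_zero (hg : ContDiff ℝ ∞ g) {ρ : ℝ} (h0 : ∀ y, ρ ≤ ‖y‖ → g y = 0) (hp : p.2 < 0)
    (h : ρ * √(-p.2) ≤ ‖p.1‖) : qq G g p = 0 := by
  have h1 : 0 < √(-p.2) := Real.sqrt_pos.2 (by linarith)
  rw [qq, ss_sp hg hp, ss_zero h0 hp h, fd_zero hg h0]
  · simp
  · rw [norm_smul, norm_inv, Real.norm_of_nonneg h1.le, ← div_eq_inv_mul, le_div_iff₀ h1]
    exact h

theorem qq_cont (hG : G.Reg) (hg : ContDiff ℝ ∞ g) (hn : ∀ p ∈ G.M, p.2 < 0) :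
    ContinuousOn (qq G g) G.M := by
  have h1 : ContinuousOn (ss g) G.M := fun p hp =>
    (ss_sm hg (hn p hp)).continuousAt.continuousWithinAt
  have h2 : ContinuousOn (fderiv ℝ (ss g)) G.M := fun p hp =>
    ((ss_sm hg (hn p hp)).fderiv_right (m := 0) (by simp)).continuousAt.continuousWithinAt
  have h3 : ContinuousOn (fun p : ST => 2 * (-p.2)) G.M := by fun_prop
  have h3' : ∀ p ∈ G.M, 2 * (-p.2) ≠ 0 := fun p hp => by have := hn p hp; linarith
  have h4 : ContinuousOn (G.dev 0) G.M := by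
    refine ((sm_H hG).continuousOn.sub ((sm_xn hG).continuousOn.div h3 h3')).congr fun p _ => ?_
    simp [Mv.dev]
  exact (h4.mul ((h2.clm_apply (hG.sm_n.continuousOn.prodMk continuousOn_const)).add
    ((h1.mul (sm_xn hG).continuousOn).div h3 h3'))).add (h1.mul (h4.pow 2))

theorem qq_le (hG : G.Reg) (hg : ContDiff ℝ ∞ g) {K ρ δ : ℝ} (hδ : 0 < δ)
    (h1 : ∀ y, |g y| ≤ K) (h2 : ∀ y, ‖fderiv ℝ g y‖ ≤ K) (hM : p ∈ G.M) (hp : p.2 ∈ Icc (-4) (-1))
    (h : ‖p.1‖ ≤ ρ * √(-p.2)) :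
    qq G g p ≤ K * δ + K * (1 + (1 + ρ) ^ 2 / (4 * δ)) * (16 * Real.pi * Real.exp (ρ ^ 2 / 4))
      * (G.dev 0 p ^ 2 * Phi 0 p) := by
  have hK : 0 ≤ K := (abs_nonneg _).trans (h1 0)
  obtain ⟨hp1, hp2⟩ := hp
  have hτ : 1 ≤ -p.2 := by linarith
  have hs : 1 ≤ √(-p.2) := Real.one_le_sqrt.2 hτ
  have hss : √(-p.2) ^ 2 = -p.2 := Real.sq_sqrt (by linarith)
  have hρ : 0 ≤ ρ := by
    by_contra hh
    nlinarith [norm_nonneg p.1, not_le.1 hh]
  have hi : (-p.2)⁻¹ ≤ 1 := inv_le_one_of_one_le₀ hτ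
  have hi0 : 0 ≤ (-p.2)⁻¹ := by positivity
  have a1 : |ss g p| ≤ K := by
    rw [ss, abs_mul, abs_of_nonneg hi0]
    nlinarith [h1 ((√(-p.2))⁻¹ • p.1), abs_nonneg (g ((√(-p.2))⁻¹ • p.1))]
  have a2 : |fderiv ℝ (ss g) p (G.n p, 0)| ≤ K := by
    rw [ss_sp hg (by linarith), abs_mul, abs_of_nonneg hi0]
    have b1 := (fderiv ℝ g ((√(-p.2))⁻¹ • p.1)).le_opNorm ((√(-p.2))⁻¹ • G.n p)
    rw [norm_smul, hG.norm_n hM, mul_one, norm_inv, Real.norm_of_nonneg (Real.sqrt_nonneg _),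
      Real.norm_eq_abs] at b1
    have b2 : (√(-p.2))⁻¹ ≤ 1 := inv_le_one_of_one_le₀ hs
    have b3 := mul_le_mul (h2 ((√(-p.2))⁻¹ • p.1)) b2 (by positivity) hK
    nlinarith [abs_nonneg (fderiv ℝ g ((√(-p.2))⁻¹ • p.1) ((√(-p.2))⁻¹ • G.n p))]
  have a3 : |G.xn 0 p / (2 * (-p.2))| ≤ ρ := by
    have b1 : |G.xn 0 p| ≤ ‖p.1‖ := by
      have := abs_real_inner_le_norm (p.1 - 0) (G.n p)
      rwa [hG.norm_n hM, mul_one, sub_zero, ← sub_zero p.1, ← Mv.xn, sub_zero] at this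
    rw [abs_div, abs_of_pos (show 0 < 2 * (-p.2) by linarith), div_le_iff₀ (by linarith)]
    have b2 : √(-p.2) ≤ 2 * -p.2 := by nlinarith
    exact b1.trans (h.trans (mul_le_mul_of_nonneg_left b2 hρ))
  have a4 : |fderiv ℝ (ss g) p (G.n p, 0) + ss g p * G.xn 0 p / (2 * (-p.2))| ≤ K * (1 + ρ) := by
    refine (abs_add_le _ _).trans ?_
    rw [mul_div_assoc, abs_mul]
    nlinarith [mul_le_mul a1 a3 (abs_nonneg _) hK]
  have a5 : 1 ≤ 16 * Real.pi * Real.exp (ρ ^ 2 / 4) * Phi 0 p := by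
    have hpi := Real.pi_pos
    simp only [Phi, gau, Prod.fst_zero, Prod.snd_zero, zero_sub, sub_zero]
    have b1 : 1 ≤ Real.exp (ρ ^ 2 / 4) * Real.exp (-‖p.1‖ ^ 2 / (4 * -p.2)) := by
      rw [← Real.exp_add]
      refine Real.one_le_exp ?_
      have : ‖p.1‖ ^ 2 ≤ ρ ^ 2 * -p.2 := by
        rw [← hss, ← mul_pow]; exact pow_le_pow_left₀ (norm_nonneg _) h 2
      rw [neg_div, ← sub_eq_add_neg, sub_nonneg, div_le_div_iff₀ (by linarith) (by norm_num)]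
      linarith
    have b2 : 1 ≤ 16 * Real.pi * (4 * Real.pi * -p.2)⁻¹ := by
      rw [← div_eq_mul_inv, le_div_iff₀ (by positivity)]
      nlinarith
    nlinarith
  have a6 : G.dev 0 p * (fderiv ℝ (ss g) p (G.n p, 0) + ss g p * G.xn 0 p / (2 * (-p.2))) ≤
      K * δ + K * ((1 + ρ) ^ 2 / (4 * δ)) * G.dev 0 p ^ 2 := by
    refine (le_abs_self _).trans ?_
    rw [abs_mul]
    refine (mul_le_mul_of_nonneg_left a4 (abs_nonneg _)).trans ?_
    have b1 : |G.dev 0 p| * (1 + ρ) ≤ δ + (1 + ρ) ^ 2 / (4 * δ) * G.dev 0 p ^ 2 := by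
      rw [← sq_abs (G.dev 0 p), div_mul_eq_mul_div, ← sub_le_iff_le_add', le_div_iff₀ (by positivity)]
      nlinarith [sq_nonneg (|G.dev 0 p| * (1 + ρ) - 2 * δ)]
    nlinarith [mul_le_mul_of_nonneg_left b1 hK]
  have a7 : ss g p * G.dev 0 p ^ 2 ≤ K * G.dev 0 p ^ 2 :=
    mul_le_mul_of_nonneg_right ((le_abs_self _).trans a1) (sq_nonneg _)
  have a8 : 0 ≤ K * (1 + (1 + ρ) ^ 2 / (4 * δ)) * G.dev 0 p ^ 2 := by positivity
  have a9 := mul_le_mul_of_nonneg_left a5 a8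
  rw [qq]
  nlinarith

/-- weakly static -/
theorem weak (hD : DivS) (hT : TransS) (hC : MuContS) (hH : HuiskenS) {a : ℝ} (ha : a < -4)
    (h : Fl G (Ioo a 0) Λ) (hg : ContDiff ℝ ∞ g) {K ρ δ : ℝ} (hδ : 0 < δ) (hρ : 0 < ρ)
    (h1 : ∀ y, |g y| ≤ K) (h2 : ∀ y, ‖fderiv ℝ g y‖ ≤ K) (h0 : ∀ y, ρ ≤ ‖y‖ → g y = 0)
    (hΛ : 0 ≤ Λ) {t : ℝ} (ht : t ∈ Icc (-4 : ℝ) (-1)) :
    ∫ x, ss g (x, t) ∂G.mu t ≤ ∫ x, g x ∂G.mu (-1) + 12 * K * δ * Λ * ρ ^ 2
      + K * (1 + (1 + ρ) ^ 2 / (4 * δ)) * (16 * Real.pi * Real.exp (ρ ^ 2 / 4))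
        * (G.Fg 0 2 - G.Fg 0 1) := by
  have hK : 0 ≤ K := (abs_nonneg _).trans (h1 0)
  have hpi := Real.pi_pos
  set B := K * (1 + (1 + ρ) ^ 2 / (4 * δ)) * (16 * Real.pi * Real.exp (ρ ^ 2 / 4)) with hB
  have hB0 : 0 ≤ B := by positivity
  obtain ⟨a', ha1, ha2⟩ := exists_between ha
  have hn : ∀ p ∈ G.M, p.2 < 0 := fun p hp => (h.time p hp).2
  have hI : Icc a' (-1 / 2) ⊆ Ioo a 0 := fun s hs => ⟨by linarith [hs.1], by linarith [hs.2]⟩
  have hJ : Ioo a' (-1 / 2) ⊆ Icc a' (-1 / 2) := Ioo_subset_Icc_self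
  have hsub : Icc (-4 : ℝ) (-1) ⊆ Ioo a' (-1 / 2) := fun s hs =>
    ⟨by linarith [hs.1], by linarith [hs.2]⟩
  have hb : ∀ p : ST, p.2 ∈ Ioo a' (-1 / 2) → ρ * √(-a') ≤ ‖p.1‖ → ρ * √(-p.2) ≤ ‖p.1‖ :=
    fun p h1 h2 => (mul_le_mul_of_nonneg_left (Real.sqrt_le_sqrt (by linarith [h1.1])) hρ.le).trans h2
  have hs : G.Sm (ss g) := fun p hp => (ss_sm hg (hn p hp)).contDiffWithinAt
  have hq := qq_cont h.mcf.1 hg hn
  have hP : ContinuousOn (fun s => ∫ x, qq G g (x, s) ∂G.mu s) (Ioo a' (-1 / 2)) :=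
    hC G h.mcf.1 _ _ isOpen_Ioo hq
      (cs_of h hI hJ fun p hp h1 h2 => qq_zero hg h0 (hn p hp) (hb p h1 h2))
  have hd : ∀ s ∈ Ioo a' (-1 / 2), HasDerivAt (fun s => ∫ x, ss g (x, s) ∂G.mu s)
      (-∫ x, qq G g (x, s) ∂G.mu s) s := fun s hs' => by
    have hsI := hI (hJ hs')
    have e1 := hT G h.mcf.1 _ _ isOpen_Ioo hs
      (cs_of h hI hJ fun p hp h1 h2 => ss_zero h0 (hn p hp) (hb p h1 h2)) s hs'
    have z : ∀ a, ∀ p ∈ G.M, p.2 ∈ Ioo a' (-1 / 2) → ρ * √(-a') ≤ ‖p.1‖ →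
        (ss g * G.pre.x a) p = 0 := fun a p hp h1 h2 => by
      rw [Pi.mul_apply, ss_zero h0 (hn p hp) (hb p h1 h2), zero_mul]
    have i1 : ∀ a, Integrable (fun x => G.D a (ss g * G.pre.x a) (x, s)) (G.mu s) := fun a => by
      refine intg h hsI (h.mcf.1.sm_D (hs.mul (Mv.sm_x a)) a).continuousOn
        (ρ := ρ * √(-a') + 1) fun x hx h3 => ?_
      rw [Mv.D_congr hx (g := fun _ => 0), Mv.D_apply, h.mcf.1.td_const hx _ (h.mcf.1.tg_PL hx _)]
      have o : IsOpen {p : ST | p.2 ∈ Ioo a' (-1 / 2) ∧ ρ * √(-a') < ‖p.1‖} :=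
        (isOpen_Ioo.preimage continuous_snd).inter
          (isOpen_lt continuous_const (continuous_norm.comp continuous_fst))
      filter_upwards [self_mem_nhdsWithin, nhdsWithin_le_nhds (o.mem_nhds
        (show ((x, s) : ST) ∈ _ from ⟨hs', by simp only; linarith⟩))] with p hp h4
        using z a p hp h4.1 h4.2.le
    have i2 : ∀ a, Integrable (fun x => (ss g * G.pre.x a) (x, s) * G.H (x, s) * G.nu a (x, s))
        (G.mu s) := fun a =>
      intg h hsI (u := fun p => (ss g * G.pre.x a) p * G.H p * G.nu a p)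
        ((((hs.mul (Mv.sm_x a)).mul (sm_H h.mcf.1)).mul (h.mcf.1.sm_nu a)).continuousOn)
        (ρ := ρ * √(-a')) fun x hx h3 => by simp only [z a _ hx hs' h3, zero_mul]
    have i3 : Integrable (fun x => qq G g (x, s)) (G.mu s) :=
      intg h hsI hq (ρ := ρ * √(-a')) fun x hx h3 => qq_zero hg h0 (hn _ hx) (hb _ hs' h3)
    refine e1.congr_deriv ?_
    have i4 : ∀ a, Integrable (fun x => G.D a (ss g * G.pre.x a) (x, s)
        - (ss g * G.pre.x a) (x, s) * G.H (x, s) * G.nu a (x, s)) (G.mu s) :=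
      fun a => (i1 a).sub (i2 a)
    rw [integral_congr_ae ((ae_sl h hsI).mono fun x hx => key h.mcf hg hx (hn _ hx))]
    simp only
    rw [integral_sub ((integrable_finset_sum _ fun a _ => i4 a).const_mul _) i3,
      integral_const_mul, integral_finset_sum _ fun a _ => i4 a,
      Finset.sum_eq_zero, mul_zero, zero_sub]
    intro a _
    rw [integral_sub (i1 a) (i2 a), hD G h.mcf.1 _ s a (hs.mul (Mv.sm_x a))
      (cs_of h hI (by simpa using hJ hs') fun p hp h1 h2 => z a p hp (by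
        rw [mem_singleton_iff.1 h1]; exact hs') h2), sub_self]
  have hu : uIcc t (-1) ⊆ Ioo a' (-1 / 2) := by
    rw [uIcc_of_le ht.2]; exact (Icc_subset_Icc_left ht.1).trans hsub
  have f1 := intervalIntegral.integral_eq_sub_of_hasDerivAt (fun s hs => hd s (hu hs))
    ((hP.mono hu).neg.intervalIntegrable)
  have f2 : ∫ x, ss g (x, -1) ∂G.mu (-1) = ∫ x, g x ∂G.mu (-1) := by simp [ss]
  rw [f2, intervalIntegral.integral_neg, intervalIntegral.integral_of_le ht.2,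
    integral_Ioc_eq_integral_Ioo] at f1
  obtain ⟨m1, m2⟩ := hH G _ Λ isOpen_Ioo h 0 (-4) (-1) (by norm_num) (by simp)
    (hsub.trans (hJ.trans hI))
  have e2 : G.Fg 0 2 - G.Fg 0 1 = G.Fs (-4) (0 : ST).1 ((0 : ST).2 - -4)
      - G.Fs (-1) (0 : ST).1 ((0 : ST).2 - -1) := by
    simp only [Mv.Fg]; norm_num
  have f3 : ENNReal.ofReal (∫ s in Ioo t (-1), ∫ x, qq G g (x, s) ∂G.mu s) ≤
      ENNReal.ofReal (12 * K * δ * Λ * ρ ^ 2 + B * (G.Fg 0 2 - G.Fg 0 1)) := by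
    refine (ofReal_int_le _ _).trans ?_
    calc _ ≤ ∫⁻ s in Ioo (-4 : ℝ) (-1), ENNReal.ofReal (∫ x, qq G g (x, s) ∂G.mu s) :=
          lintegral_mono_set (Ioo_subset_Ioo_left ht.1)
      _ ≤ ∫⁻ s in Ioo (-4 : ℝ) (-1), (ENNReal.ofReal (K * δ * (Λ * (2 * ρ) ^ 2))
            + ENNReal.ofReal B * ∫⁻ x, ENNReal.ofReal (G.dev 0 (x, s) ^ 2 * Phi 0 (x, s))
              ∂G.mu s) := by
          refine setLIntegral_mono' measurableSet_Ioo fun s hs' => (ofReal_int_le _ _).trans ?_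
          have hs4 := Ioo_subset_Icc_self hs'
          calc _ ≤ ∫⁻ x, ((Metric.ball (0 : E) (2 * ρ)).indicator
                  (fun _ => ENNReal.ofReal (K * δ)) x + ENNReal.ofReal B
                  * ENNReal.ofReal (G.dev 0 (x, s) ^ 2 * Phi 0 (x, s))) ∂G.mu s := by
                refine lintegral_mono_ae ((ae_sl h (hI (hJ (hsub hs4)))).mono fun x hx => ?_)
                by_cases h3 : ρ * √(-s) ≤ ‖x‖
                · simp [qq_zero hg h0 (hn _ hx) h3]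
                have h4 : √(-s) ≤ 2 := Real.sqrt_le_iff.2 ⟨by norm_num, by linarith [hs4.1]⟩
                rw [indicator_of_mem (by
                  rw [mem_ball_zero_iff]; nlinarith [not_le.1 h3]), ← ENNReal.ofReal_mul hB0]
                exact (ENNReal.ofReal_le_ofReal (qq_le h.mcf.1 hg hδ h1 h2 hx hs4
                  (not_le.1 h3).le)).trans ENNReal.ofReal_add_le
            _ ≤ _ := by
                rw [lintegral_add_left (measurable_const.indicator Metric.isOpen_ball.measurableSet),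
                  lintegral_indicator_const Metric.isOpen_ball.measurableSet,
                  lintegral_const_mul' _ _ ENNReal.ofReal_ne_top,
                  ENNReal.ofReal_mul (by positivity : 0 ≤ K * δ)]
                gcongr
                exact h.ar s 0 _ (by positivity)
      _ = _ := by
          rw [lintegral_add_left measurable_const, lintegral_const_mul' _ _ ENNReal.ofReal_ne_top,
            setLIntegral_const, Real.volume_Ioo]
          have m3 := m2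
          rw [Mv.stI, ← e2] at m3
          rw [m3, ← ENNReal.ofReal_mul (by positivity), ← ENNReal.ofReal_mul hB0,
            ← ENNReal.ofReal_add (by positivity) (mul_nonneg hB0 (by rw [e2]; linarith))]
          congr 1; ring
  have f4 := (ENNReal.ofReal_le_ofReal_iff (add_nonneg (by positivity)
    (mul_nonneg hB0 (by rw [e2]; linarith)))).1 f3
  linarith

end Crest.Agent.N250.Bt

end
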